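import Mathlib

/-!
P219: a `C¹` self map of a finite dimensional space which expands over compact sets is bijective
(lifting of segments, then monodromy), and its inverse is `C¹`.
-/

namespace Vale.Agent.P219.CH

open Set Filter Topology Function
open scoped unitInterval

noncomputable section

variable {F : Type*} [NormedAddCommGroup F] [NormedSpace ℝ F] [FiniteDimensional ℝ F]
  {f : F → F}

/-- The derivative is bounded below over every compact set of the target. -/
def ExpandsOnCompacts (f : F → F) : Prop :=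
  ∀ K : Set F, IsCompact K → ∃ C : ℝ, 0 ≤ C ∧ ∀ v w, f v ∈ K → ‖w‖ ≤ C * ‖fderiv ℝ f v w‖

/-- The derivative as an equivalence. -/
def derivEquiv (f : F → F) (v : F) (h : Injective (fderiv ℝ f v)) : F ≃L[ℝ] F :=
  (LinearEquiv.ofInjectiveEndo (fderiv ℝ f v).toLinearMap h).toContinuousLinearEquiv

theorem derivEquiv_apply (f : F → F) (v : F) (h : Injective (fderiv ℝ f v)) (w : F) :
    derivEquiv f v h w = fderiv ℝ f v w := rfl

omit [FiniteDimensional ℝ F] in
theorem ExpandsOnCompacts.injective (hE : ExpandsOnCompacts f) (v : F) :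
    Injective (fderiv ℝ f v) := by
  obtain ⟨C, -, h⟩ := hE {f v} isCompact_singleton
  refine (injective_iff_map_eq_zero _).mpr fun w hw => ?_
  simpa [hw] using h v w rfl

theorem hasStrictFDerivAt_derivEquiv (hf : ContDiff ℝ 1 f) (hE : ExpandsOnCompacts f) (v : F) :
    HasStrictFDerivAt f (derivEquiv f v (hE.injective v) : F →L[ℝ] F) v := by
  have h := hf.contDiffAt.hasStrictFDerivAt (x := v) one_ne_zero
  convert h using 1
  ext w
  rfl

/-- Lifts of a segment are Lipschitz, uniformly. -/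
theorem lift_bound (hf : ContDiff ℝ 1 f) (hE : ExpandsOnCompacts f) (a d : F) :
    ∃ C : ℝ, 0 ≤ C ∧ ∀ (τ : ℝ) (L : ℝ → F), τ ∈ Icc (0 : ℝ) 1 → ContinuousOn L (Icc 0 τ) →
      (∀ s ∈ Icc 0 τ, f (L s) = a + s • d) → ∀ s ∈ Icc 0 τ, ‖L s - L 0‖ ≤ C * ‖d‖ * s := by
  obtain ⟨C, hC, hb⟩ := hE ((fun s : ℝ => a + s • d) '' Icc 0 1)
    (isCompact_Icc.image (by fun_prop))
  refine ⟨C, hC, fun τ L hτ hL hlift s hs => ?_⟩
  have hder : ∀ u ∈ Icc 0 τ, ∃ w, HasDerivWithinAt L w (Icc 0 τ) u ∧ ‖w‖ ≤ C * ‖d‖ := by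
    intro u hu
    have hF := hasStrictFDerivAt_derivEquiv hf hE (L u)
    set e := hF.toOpenPartialHomeomorph f
    have hr := hF.to_localInverse.hasFDerivAt
    rw [hlift u hu] at hr
    have hc : HasDerivAt (fun r : ℝ => a + r • d) d u := by
      simpa using ((hasDerivAt_id u).smul_const d).const_add a
    refine ⟨_, (hr.comp_hasDerivAt u hc).hasDerivWithinAt.congr_of_eventuallyEq ?_ ?_, ?_⟩
    · have hsrc : ∀ᶠ r in 𝓝[Icc 0 τ] u, L r ∈ e.source :=
        (hL u hu).eventually (e.open_source.mem_nhds hF.mem_toOpenPartialHomeomorph_source)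
      filter_upwards [hsrc, self_mem_nhdsWithin] with r hr' hrI
      have := e.left_inv hr'
      rw [HasStrictFDerivAt.toOpenPartialHomeomorph_coe, hlift r hrI] at this
      exact this.symm
    · have := e.left_inv hF.mem_toOpenPartialHomeomorph_source
      rw [HasStrictFDerivAt.toOpenPartialHomeomorph_coe, hlift u hu] at this
      exact this.symm
    · have h1 := hb (L u) ((derivEquiv f (L u) (hE.injective (L u))).symm d)
        ⟨u, ⟨hu.1, hu.2.trans hτ.2⟩, (hlift u hu).symm⟩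
      rwa [← derivEquiv_apply f (L u) (hE.injective (L u)),
        ContinuousLinearEquiv.apply_symm_apply] at h1
  choose! w hw hwb using hder
  simpa using norm_image_sub_le_of_norm_deriv_le_segment' hw
    (fun u hu => hwb u (Ico_subset_Icc_self hu)) s hs

/-- Every segment starting at `f 0` has a lift starting at `0`. -/
theorem exists_lift_segment (hf : ContDiff ℝ 1 f) (hE : ExpandsOnCompacts f) (d : F) :
    ∃ L : ℝ → F, ContinuousOn L (Icc 0 1) ∧ L 0 = 0 ∧
      ∀ s ∈ Icc (0 : ℝ) 1, f (L s) = f 0 + s • d := by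
  obtain ⟨C, hC, hbound⟩ := lift_bound hf hE (f 0) d
  set T : Set ℝ := {τ | τ ∈ Icc (0 : ℝ) 1 ∧ ∃ L : ℝ → F, ContinuousOn L (Icc 0 τ) ∧ L 0 = 0 ∧
    ∀ s ∈ Icc 0 τ, f (L s) = f 0 + s • d}
  have h0 : (0 : ℝ) ∈ T := ⟨⟨le_rfl, zero_le_one⟩, fun _ => 0, continuousOn_const, rfl, fun s hs => by
    simp [le_antisymm hs.2 hs.1]⟩
  have hbdd : BddAbove T := ⟨1, fun τ h => h.1.2⟩
  set τ₀ := sSup T
  have hτ₀ : τ₀ ∈ Icc (0 : ℝ) 1 := ⟨le_csSup hbdd h0, csSup_le ⟨0, h0⟩ fun τ h => h.1.2⟩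
  obtain ⟨τn, -, hτn, hmem⟩ := exists_seq_tendsto_sSup ⟨0, h0⟩ hbdd
  choose hI L hLc hL0 hLf using hmem
  have hball : ∀ n, L n (τn n) ∈ Metric.closedBall (0 : F) (C * ‖d‖) := by
    intro n
    have h := hbound (τn n) (L n) (hI n) (hLc n) (hLf n) (τn n) ⟨(hI n).1, le_rfl⟩
    rw [hL0 n, sub_zero] at h
    rw [mem_closedBall_zero_iff]
    exact h.trans (mul_le_of_le_one_right (by positivity) (hI n).2)
  obtain ⟨p, -, φ, hφ, hp⟩ := (isCompact_closedBall (0 : F) (C * ‖d‖)).tendsto_subseq hball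
  have hseq : Tendsto (fun n => τn (φ n)) atTop (𝓝 τ₀) := hτn.comp hφ.tendsto_atTop
  have hfp : f p = f 0 + τ₀ • d :=
    tendsto_nhds_unique ((hf.continuous.tendsto p).comp hp)
      (((continuous_const.add (continuous_id.smul continuous_const)).tendsto τ₀).comp hseq |>.congr
        fun n => (hLf _ _ ⟨(hI _).1, le_rfl⟩).symm)
  have hF := hasStrictFDerivAt_derivEquiv hf hE p
  set e := hF.toOpenPartialHomeomorph f
  have hcoe : (e : F → F) = f := hF.toOpenPartialHomeomorph_coe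
  have hc : Continuous fun s : ℝ => f 0 + s • d := by fun_prop
  have hev : (fun s : ℝ => f 0 + s • d) ⁻¹' e.target ∈ 𝓝 τ₀ := by
    refine (e.open_target.preimage hc).mem_nhds ?_
    have := e.map_source hF.mem_toOpenPartialHomeomorph_source
    rw [hcoe, hfp] at this
    exact this
  obtain ⟨δ, hδ, hδt⟩ := Metric.mem_nhds_iff.mp hev
  obtain ⟨n, hn, hnδ⟩ := ((hp.eventually (e.open_source.mem_nhds
    hF.mem_toOpenPartialHomeomorph_source)).and
    (hseq.eventually (Metric.ball_mem_nhds τ₀ hδ))).exists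
  set m := φ n
  set τ₁ := min (τ₀ + δ / 2) 1
  have hm₀ : τn m ≤ τ₀ := le_csSup hbdd ⟨hI m, L m, hLc m, hL0 m, hLf m⟩
  have hm₁ : τn m ≤ τ₁ := le_min (by linarith) (hI m).2
  have hball' : ∀ s ∈ Icc (τn m) τ₁, f 0 + s • d ∈ e.target := by
    refine fun s hs => hδt (a := s) ?_
    have hd' := abs_sub_lt_iff.mp (Real.dist_eq _ _ ▸ Metric.mem_ball.mp hnδ)
    rw [Metric.mem_ball, Real.dist_eq, abs_sub_lt_iff]
    exact ⟨by linarith [hs.2.trans (min_le_left _ _)], by linarith [hs.1, hd'.2]⟩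
  have hglue : e.symm (f 0 + τn m • d) = L m (τn m) := by
    have := e.left_inv hn
    rwa [hcoe, comp_apply, hLf m _ ⟨(hI m).1, le_rfl⟩] at this
  set L' : ℝ → F := fun s => if s ≤ τn m then L m s else e.symm (f 0 + s • d)
  have hL'c : ContinuousOn L' (Icc 0 τ₁) := by
    rw [← Icc_union_Icc_eq_Icc (hI m).1 hm₁]
    refine ContinuousOn.union_of_isClosed ?_ ?_ isClosed_Icc isClosed_Icc
    · exact (hLc m).congr fun s hs => if_pos hs.2
    · refine ((e.continuousOn_symm.comp hc.continuousOn hball')).congr fun s hs => ?_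
      rcases hs.1.eq_or_lt with h | h
      · simp [L', ← h, hglue]
      · simp [L', not_le.mpr h]
  have hT₁ : τ₁ ∈ T := by
    refine ⟨⟨(hI m).1.trans hm₁, min_le_right _ _⟩, L', hL'c, ?_, fun s hs => ?_⟩
    · simp [L', (hI m).1, hL0]
    · by_cases hsm : s ≤ τn m
      · simpa [L', hsm] using hLf m s ⟨hs.1, hsm⟩
      · have := e.right_inv (hball' s ⟨(not_le.mp hsm).le, hs.2⟩)
        rw [hcoe] at this
        simpa [L', hsm] using this
  have hτ₁ : τ₁ = 1 := by
    rcases min_choice (τ₀ + δ / 2) 1 with h | h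
    · linarith [le_csSup hbdd hT₁, h.symm.le]
    · exact h
  obtain ⟨-, L₁, hc₁, h0₁, hf₁⟩ := hT₁
  rw [hτ₁] at hc₁ hf₁
  exact ⟨L₁, hc₁, h0₁, hf₁⟩

/-- An expanding `C¹` map is bijective. -/
theorem bijective_of_expands (hf : ContDiff ℝ 1 f) (hE : ExpandsOnCompacts f) : Bijective f := by
  have homeo : IsLocalHomeomorph f := by
    refine IsLocalHomeomorph.mk f fun v => ?_
    have hF := hasStrictFDerivAt_derivEquiv hf hE v
    exact ⟨hF.toOpenPartialHomeomorph f, hF.mem_toOpenPartialHomeomorph_source,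
      fun w _ => (congrFun hF.toOpenPartialHomeomorph_coe w).symm⟩
  choose L hLc hL0 hLf using exists_lift_segment hf hE
  set g : I × F → F := fun q => L (q.2 - f 0) (q.1 : ℝ)
  let c : C(I × F, F) := ⟨fun q => f 0 + (q.1 : ℝ) • (q.2 - f 0), by fun_prop⟩
  have hg : Continuous g := by
    refine homeo.continuous_lift (T2Space.isSeparatedMap f) c ?_ ?_ fun y => ?_
    · exact funext fun q => hLf _ _ q.1.2
    · simpa [g, hL0] using continuous_const
    · exact (hLc (y - f 0)).comp_continuous continuous_subtype_val fun s => s.2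
  set inv₀ : F → F := fun y => g (1, y)
  have hinv₀ : Continuous inv₀ := hg.comp (Continuous.prodMk_right 1)
  have hright : ∀ y, f (inv₀ y) = y := fun y => by
    have := hLf (y - f 0) 1 ⟨zero_le_one, le_rfl⟩
    simpa [inv₀, g] using this
  have h00 : inv₀ (f 0) = 0 := by
    obtain ⟨C, -, hb⟩ := lift_bound hf hE (f 0) (0 : F)
    have h := hb 1 (L 0) ⟨zero_le_one, le_rfl⟩ (hLc 0) (hLf 0) 1 ⟨zero_le_one, le_rfl⟩
    simpa [inv₀, g, hL0] using h
  have hall : ∀ v, inv₀ (f v) = v := by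
    have hclopen : IsClopen {v | inv₀ (f v) = v} := by
      refine ⟨isClosed_eq (hinv₀.comp hf.continuous) continuous_id, isOpen_iff_mem_nhds.mpr ?_⟩
      intro v (hv : inv₀ (f v) = v)
      obtain ⟨e, he, hfe⟩ := homeo v
      have h1 : ∀ᶠ w in 𝓝 v, inv₀ (f w) ∈ e.source :=
        (hinv₀.comp hf.continuous).continuousAt.eventually_mem
          (e.open_source.mem_nhds (by simpa [hv] using he))
      filter_upwards [h1, e.open_source.mem_nhds he] with w hw hw'
      exact e.injOn hw hw' (by rw [← hfe, hright])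
    exact fun v => (Set.ext_iff.mp (hclopen.eq_univ ⟨0, h00⟩) v).mpr (mem_univ v)
  exact ⟨LeftInverse.injective hall, fun y => ⟨inv₀ y, hright y⟩⟩

/-- The inverse of a bijective `C¹` map with injective derivative is `C¹`. -/
theorem contDiff_of_inverse {G : Type*} [NormedAddCommGroup G] [NormedSpace ℝ G]
    [FiniteDimensional ℝ G] {Φ Ψ : G → G} (hΦ : ContDiff ℝ 1 Φ)
    (hinj : ∀ p, Injective (fderiv ℝ Φ p)) (hl : ∀ p, Ψ (Φ p) = p) (hr : ∀ q, Φ (Ψ q) = q) :
    ContDiff ℝ 1 Ψ := by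
  refine contDiff_iff_contDiffAt.mpr fun q => ?_
  have hd : HasFDerivAt Φ (derivEquiv Φ (Ψ q) (hinj _) : G →L[ℝ] G) (Ψ q) :=
    (hΦ.differentiable one_ne_zero (Ψ q)).hasFDerivAt
  have h := hΦ.contDiffAt.to_localInverse hd one_ne_zero
  have hright := (hΦ.contDiffAt.hasStrictFDerivAt' hd one_ne_zero).eventually_right_inverse
  rw [hr] at h
  refine h.congr_of_eventuallyEq ?_
  rw [hr] at hright
  filter_upwards [hright] with y hy
  exact (hl _).symm.trans (congrArg Ψ hy) |>.symm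

end

end Vale.Agent.P219.CH
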