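import Vale.Agent.P219.CH.Geo.Basic

/-!
P219: an expanding linear map increases the Riemannian volume density.
-/

namespace Vale.Agent.P219.CH

open Matrix Finset

noncomputable section

variable {n : ℕ}

/-- The determinant is monotone on positive definite matrices. -/
theorem det_le_det_of_forms {P Q : Matrix (Fin n) (Fin n) ℝ} (hP : P.PosDef) (hQ : Q.IsHermitian)
    (h : ∀ x : Fin n → ℝ, x ⬝ᵥ (P *ᵥ x) ≤ x ⬝ᵥ (Q *ᵥ x)) : P.det ≤ Q.det := by
  set U : Matrix (Fin n) (Fin n) ℝ := (hP.1.eigenvectorUnitary : Matrix (Fin n) (Fin n) ℝ)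
  set d : Fin n → ℝ := fun i => (Real.sqrt (hP.1.eigenvalues i))⁻¹
  set S := U * diagonal d
  have hdiag : Uᵀ * P * U = diagonal hP.1.eigenvalues := by
    have := hP.1.conjStarAlgAut_star_eigenvectorUnitary
    rw [Unitary.conjStarAlgAut_star_apply] at this
    simpa [U, star_eq_conjTranspose, conjTranspose_eq_transpose_of_trivial] using this
  have hSP : Sᵀ * P * S = 1 := by
    rw [show Sᵀ * P * S = diagonal d * (Uᵀ * P * U) * diagonal d by
      simp [S, transpose_mul, diagonal_transpose, Matrix.mul_assoc], hdiag,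
      diagonal_mul_diagonal, diagonal_mul_diagonal, ← diagonal_one]
    congr 1
    funext i
    have := Real.sqrt_pos.mpr (hP.eigenvalues_pos i)
    simp only [d]
    field_simp
    exact (Real.sq_sqrt (hP.eigenvalues_pos i).le).symm
  set R := Sᵀ * Q * S
  have hR : R.IsHermitian := by
    simpa [R, conjTranspose_eq_transpose_of_trivial] using
      Matrix.isHermitian_conjTranspose_mul_mul S hQ
  have hquad : ∀ (M : Matrix (Fin n) (Fin n) ℝ) (x : Fin n → ℝ),
      x ⬝ᵥ ((Sᵀ * M * S) *ᵥ x) = (S *ᵥ x) ⬝ᵥ (M *ᵥ (S *ᵥ x)) := fun M x => by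
    rw [← mulVec_mulVec, ← mulVec_mulVec, dotProduct_mulVec, vecMul_transpose]
  have heig : ∀ i, 1 ≤ hR.eigenvalues i := by
    intro i
    set v := ⇑(hR.eigenvectorBasis i)
    have h1 : v ⬝ᵥ v = 1 := by
      have := hR.eigenvectorBasis.orthonormal.1 i
      rw [EuclideanSpace.norm_eq, Real.sqrt_eq_one] at this
      simpa [dotProduct, sq] using this
    have h2 := hquad P v
    rw [hSP, one_mulVec, h1] at h2
    calc (1 : ℝ) = (S *ᵥ v) ⬝ᵥ (P *ᵥ (S *ᵥ v)) := h2
      _ ≤ (S *ᵥ v) ⬝ᵥ (Q *ᵥ (S *ᵥ v)) := h _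
      _ = v ⬝ᵥ (R *ᵥ v) := (hquad Q v).symm
      _ = hR.eigenvalues i := by simp [v, hR.eigenvalues_eq]
  have hdet : 1 ≤ R.det := by
    rw [hR.det_eq_prod_eigenvalues]
    simpa using Finset.one_le_prod (s := univ) fun i (_ : i ∈ univ) => heig i
  have hS : S.det ^ 2 * P.det = 1 := by
    have := congrArg det hSP
    simpa [det_mul, det_transpose, sq, mul_right_comm] using this
  have hR' : R.det = S.det ^ 2 * Q.det := by
    simp [R, det_mul, det_transpose, sq, mul_right_comm]
  rw [hR', ← hS] at hdet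
  exact le_of_mul_le_mul_left hdet (by
    rcases (sq_nonneg S.det).eq_or_lt with h0 | h0
    · rw [← h0, zero_mul] at hS; exact absurd hS zero_ne_one
    · exact h0)

theorem metric_eq_gmat (G : Coeff n) (x u w : E n) :
    G x u w = (⇑u) ⬝ᵥ (gmat G x *ᵥ ⇑w) := by
  have hu := (EuclideanSpace.basisFun (Fin n) ℝ).sum_repr u
  have hw := (EuclideanSpace.basisFun (Fin n) ℝ).sum_repr w
  conv_lhs => rw [← hu, ← hw]
  simp [gmat, dotProduct, mulVec, Finset.mul_sum, mul_comm, mul_left_comm]
  exact Finset.sum_comm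

theorem gmat_posDef {G : Coeff n} (hG : IsMetric G) (x : E n) : (gmat G x).PosDef := by
  refine Matrix.posDef_iff_dotProduct_mulVec.mpr ⟨?_, fun v hv => ?_⟩
  · ext i j; simp [gmat, hG.symm x]
  · have h := hG.pos x (WithLp.toLp 2 v) (by simpa using hv)
    rwa [metric_eq_gmat] at h

/-- A linear map which expands from `x` to `y` increases the density. -/
theorem dens_le_det_mul {G : Coeff n} (hG : IsMetric G) {x y : E n} (D : E n →L[ℝ] E n)
    (h : ∀ w, G x w w ≤ G y (D w) (D w)) : dens G x ≤ |D.det| * dens G y := by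
  set M := LinearMap.toMatrix (EuclideanSpace.basisFun (Fin n) ℝ).toBasis
    (EuclideanSpace.basisFun (Fin n) ℝ).toBasis D.toLinearMap
  have hM : ∀ w : E n, M *ᵥ ⇑w = ⇑(D w) := fun w => by
    have := LinearMap.toMatrix_mulVec_repr (EuclideanSpace.basisFun (Fin n) ℝ).toBasis
      (EuclideanSpace.basisFun (Fin n) ℝ).toBasis D.toLinearMap w
    exact this
  have hsym : (Mᵀ * gmat G y * M).IsHermitian := by
    simpa [conjTranspose_eq_transpose_of_trivial] using
      Matrix.isHermitian_conjTranspose_mul_mul M (gmat_posDef hG y).1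
  have hle := det_le_det_of_forms (gmat_posDef hG x) hsym fun v => by
    have := h (WithLp.toLp 2 v)
    rw [metric_eq_gmat, metric_eq_gmat, ← hM] at this
    rw [← mulVec_mulVec, ← mulVec_mulVec, dotProduct_mulVec v Mᵀ, vecMul_transpose]
    exact this
  have hdet : M.det = D.det := by
    rw [LinearMap.det_toMatrix]
  rw [det_mul, det_mul, det_transpose, hdet] at hle
  unfold dens
  rw [← Real.sqrt_sq_eq_abs, ← Real.sqrt_mul (sq_nonneg _)]
  exact Real.sqrt_le_sqrt (hle.trans_eq (by rw [gmat]; ring))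

end

end Vale.Agent.P219.CH
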