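import Vale.Agent.P219.CH.Interfaces
import Vale.Agent.P219.CH.Geo.Hadamard.Global
import Vale.Agent.P219.CH.Geo.Hadamard.Volume

/-!
P219: from the geodesic flow and the Jacobi estimates to the whole geometric interface (the
theorem of Cartan and Hadamard, the Hessian comparison and the volume comparison).
-/

namespace Vale.Agent.P219.CH

open MeasureTheory Function Filter Topology
open scoped ContDiff ENNReal

noncomputable section

variable {n : ℕ} {G : Coeff n} {flow : ℝ → E n × E n → E n × E n}

/-- The exponential map of a flow. -/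
def expAt (flow : ℝ → E n × E n → E n × E n) (x v : E n) : E n := (flow 1 (x, v)).1

/-- The velocity at time one. -/
def velAt (flow : ℝ → E n × E n → E n × E n) (x v : E n) : E n := (flow 1 (x, v)).2

/-- What the Jacobi fields give. -/
structure JacobiFacts (G : Coeff n) (flow : ℝ → E n × E n → E n × E n) : Prop where
  expand : ∀ x v w, G x w w ≤
    G (expAt flow x v) (fderiv ℝ (expAt flow x) v w) (fderiv ℝ (expAt flow x) v w)
  convex : ∀ x v w,
    G (expAt flow x v) (fderiv ℝ (expAt flow x) v w) (fderiv ℝ (expAt flow x) v w) ≤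
      G (expAt flow x v) (fderiv ℝ (velAt flow x) v w +
        chr G (expAt flow x v) (fderiv ℝ (expAt flow x) v w) (velAt flow x v))
        (fderiv ℝ (expAt flow x) v w)
  gauss : ∀ x v w,
    G (expAt flow x v) (velAt flow x v) (fderiv ℝ (expAt flow x) v w) = G x v w

variable (hG : IsMetric G) (hflow : ContDiff ℝ 1 fun q : ℝ × (E n × E n) => flow q.1 q.2)

include hflow in
theorem contDiff_expPair : ContDiff ℝ 1 fun q : E n × E n => expAt flow q.1 q.2 :=
  contDiff_fst.comp (hflow.comp (contDiff_const.prodMk contDiff_id))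

include hflow in
theorem contDiff_expAt (x : E n) : ContDiff ℝ 1 (expAt flow x) :=
  (contDiff_expPair hflow).comp (contDiff_const.prodMk contDiff_id)

include hflow in
theorem contDiff_velAt (x : E n) : ContDiff ℝ 1 (velAt flow x) :=
  (contDiff_snd.comp (hflow.comp (contDiff_const.prodMk contDiff_id))).comp
    (contDiff_const.prodMk contDiff_id)

include hG in
/-- A metric is comparable with the Euclidean norm at one point. -/
theorem exists_lower_bound (x : E n) : ∃ c : ℝ, 0 < c ∧ ∀ w, c * ‖w‖ ^ 2 ≤ G x w w := by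
  rcases subsingleton_or_nontrivial (E n) with h | h
  · exact ⟨1, one_pos, fun w => by simp [Subsingleton.elim w 0]⟩
  obtain ⟨u, hu, hmin⟩ := (isCompact_sphere (0 : E n) 1).exists_isMinOn
    (NormedSpace.sphere_nonempty.mpr zero_le_one)
    ((Continuous.clm_apply (G x).continuous continuous_id).continuousOn)
  have hu0 : u ≠ 0 := ne_zero_of_mem_unit_sphere ⟨u, hu⟩
  refine ⟨G x u u, hG.pos x u hu0, fun w => ?_⟩
  rcases eq_or_ne w 0 with rfl | hw
  · simp
  have h1 : G x u u ≤ G x (‖w‖⁻¹ • w) (‖w‖⁻¹ • w) :=
    hmin (by rw [mem_sphere_zero_iff_norm, norm_smul, norm_inv, norm_norm,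
      inv_mul_cancel₀ (norm_ne_zero_iff.mpr hw)])
  simp only [map_smul, smul_apply, smul_eq_mul] at h1
  have := norm_pos_iff.mpr hw
  field_simp at h1
  linarith

include hG in
/-- Over a compact set the metric is bounded by the Euclidean norm. -/
theorem exists_upper_bound {K : Set (E n)} (hK : IsCompact K) :
    ∃ C : ℝ, 0 ≤ C ∧ ∀ y ∈ K, ∀ w, G y w w ≤ C * ‖w‖ ^ 2 := by
  obtain ⟨C, hC⟩ := hK.bddAbove_image ((continuous_norm (E := E n →L[ℝ] E n →L[ℝ] ℝ)).comp hG.smooth.continuous).continuousOn
  refine ⟨max C 0, le_max_right _ _, fun y hy w => ?_⟩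
  calc G y w w ≤ ‖G y w w‖ := le_abs_self _
    _ ≤ ‖G y w‖ * ‖w‖ := (G y w).le_opNorm w
    _ ≤ ‖G y‖ * ‖w‖ * ‖w‖ := by gcongr; exact (G y).le_opNorm w
    _ ≤ max C 0 * ‖w‖ * ‖w‖ := by gcongr; exact (hC (Set.mem_image_of_mem _ hy)).trans (le_max_left _ _)
    _ = _ := by ring

variable (hJ : JacobiFacts G flow)

include hG hJ in
theorem expands_expAt (x : E n) : ExpandsOnCompacts (expAt flow x) := by
  intro K hK
  obtain ⟨c, hc, hlow⟩ := exists_lower_bound hG x
  obtain ⟨C, hC, hup⟩ := exists_upper_bound hG hK
  refine ⟨Real.sqrt (C / c), Real.sqrt_nonneg _, fun v w hv => ?_⟩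
  have h := (hlow w).trans ((hJ.expand x v w).trans (hup _ hv _))
  rw [← Real.sqrt_sq (norm_nonneg w),
    ← Real.sqrt_sq (norm_nonneg (fderiv ℝ (expAt flow x) v w)), ← Real.sqrt_mul (by positivity)]
  refine Real.sqrt_le_sqrt ?_
  rw [div_mul_eq_mul_div, le_div_iff₀ hc]
  linarith

include hG hflow hJ in
theorem bijective_expAt (x : E n) : Bijective (expAt flow x) :=
  bijective_of_expands (contDiff_expAt hflow x) (expands_expAt hG hJ x)

include hG hflow hJ in
/-- The inverse exponential map. -/
theorem exists_log : ∃ logm : E n → E n → E n, (∀ x y, expAt flow x (logm x y) = y) ∧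
    (∀ x v, logm x (expAt flow x v) = v) ∧
    ContDiff ℝ 1 (fun q : E n × E n => logm q.1 q.2) := by
  set lg : E n → E n → E n := fun x => (Equiv.ofBijective _ (bijective_expAt hG hflow hJ x)).symm
  have hl : ∀ x v, lg x (expAt flow x v) = v := fun x v =>
    (Equiv.ofBijective _ (bijective_expAt hG hflow hJ x)).symm_apply_apply v
  have hr : ∀ x y, expAt flow x (lg x y) = y := fun x y =>
    (Equiv.ofBijective _ (bijective_expAt hG hflow hJ x)).apply_symm_apply y
  refine ⟨lg, hr, hl, ?_⟩
  set Φ : E n × E n → E n × E n := fun q => (q.1, expAt flow q.1 q.2)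
  have hΦ : ContDiff ℝ 1 Φ := contDiff_fst.prodMk (contDiff_expPair hflow)
  have hinj : ∀ q, Injective (fderiv ℝ Φ q) := by
    intro q
    have h := hasFDerivAt_fst.prodMk
      ((contDiff_expPair hflow).differentiable one_ne_zero q).hasFDerivAt
    rw [h.fderiv]
    refine (injective_iff_map_eq_zero _).mpr fun p hp => ?_
    have h1 : p.1 = 0 := congrArg Prod.fst hp
    have h2 := congrArg Prod.snd hp
    have hpart : HasFDerivAt (expAt flow q.1)
        ((fderiv ℝ (fun q : E n × E n => expAt flow q.1 q.2) q).comp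
          (ContinuousLinearMap.inr ℝ (E n) (E n))) q.2 :=
      HasFDerivAt.comp (g := fun q : E n × E n => expAt flow q.1 q.2) q.2
        (f := fun v => (q.1, v))
        ((contDiff_expPair hflow).differentiable one_ne_zero q).hasFDerivAt
        (hasFDerivAt_prodMk_right q.1 q.2)
    have h3 : fderiv ℝ (expAt flow q.1) q.2 p.2 = 0 := by
      rw [hpart.fderiv]
      have : ((0 : E n), p.2) = p := by rw [← h1]
      simpa [this] using h2
    exact Prod.ext h1 ((injective_iff_map_eq_zero _).mp
      ((expands_expAt hG hJ q.1).injective q.2) _ h3)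
  have hΨ := contDiff_of_inverse (Ψ := fun q : E n × E n => (q.1, lg q.1 q.2)) hΦ hinj
    (fun p => by simp [Φ, hl]) (fun p => by simp [Φ, hr])
  exact contDiff_snd.comp hΨ

include hG hflow hJ in
/-- The theorem of Cartan and Hadamard with the comparisons, in the form of `Geo`. -/
theorem geo_of_flow (hzero : ∀ p, flow 0 p = p)
    (hadd : ∀ s t p, flow (s + t) p = flow s (flow t p))
    (hgeod : ∀ p, IsGeodesic G (fun t => (flow t p).1) ∧
      ∀ t, deriv (fun s => (flow s p).1) t = (flow t p).2)
    (hscale : ∀ (c t : ℝ) (x v : E n),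
      flow t (x, c • v) = ((flow (c * t) (x, v)).1, c • (flow (c * t) (x, v)).2))
    (hspeed : ∀ t p, gnorm G (flow t p).1 (flow t p).2 = gnorm G p.1 p.2)
    (hliouville : ∀ t, MeasurePreserving (flow t) (liouville G) (liouville G)) :
    Nonempty (Geo G) := by
  obtain ⟨lg, hr, hl, hc⟩ := exists_log hG hflow hJ
  have hlx : ∀ x, ContDiff ℝ 1 (lg x) := fun x => hc.comp (contDiff_const.prodMk contDiff_id)
  have hu : ∀ x y w, fderiv ℝ (expAt flow x) (lg x y) (fderiv ℝ (lg x) y w) = w := by
    intro x y w
    have h1 : fderiv ℝ (expAt flow x ∘ lg x) y =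
        (fderiv ℝ (expAt flow x) (lg x y)).comp (fderiv ℝ (lg x) y) :=
      fderiv_comp y ((contDiff_expAt hflow x).differentiable one_ne_zero _)
        ((hlx x).differentiable one_ne_zero y)
    rw [show expAt flow x ∘ lg x = id from funext (hr x), fderiv_id] at h1
    exact (congrArg (fun L : E n →L[ℝ] E n => L w) h1).symm
  refine ⟨{
    flow := flow
    flow_c1 := hflow
    flow_zero := hzero
    flow_add := hadd
    flow_geodesic := hgeod
    flow_scale := hscale
    flow_speed := hspeed
    logm := lg
    exp_logm := hr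
    logm_exp := hl
    logm_c1 := hc
    hess := fun x y w => ?_
    grad_dist := fun x y w => ?_
    polar := fun x h hh => ?_
    liouville_inv := hliouville }⟩
  · have h1 : fderiv ℝ (fun z => (flow 1 (x, lg x z)).2) y w =
        fderiv ℝ (velAt flow x) (lg x y) (fderiv ℝ (lg x) y w) := by
      rw [show (fun z => (flow 1 (x, lg x z)).2) = velAt flow x ∘ lg x from rfl,
        fderiv_comp y ((contDiff_velAt hflow x).differentiable one_ne_zero _)
          ((hlx x).differentiable one_ne_zero y)]
      rfl
    have h := hJ.convex x (lg x y) (fderiv ℝ (lg x) y w)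
    rw [hr, hu] at h
    rw [covd, h1]
    exact h
  · have hd := ((G x).hasFDerivAt.comp y ((hlx x).differentiable one_ne_zero y).hasFDerivAt).clm_apply
      ((hlx x).differentiable one_ne_zero y).hasFDerivAt
    have h := hJ.gauss x (lg x y) (fderiv ℝ (lg x) y w)
    rw [hr, hu] at h
    change fderiv ℝ (fun z => G x (lg x z) (lg x z)) y w = 2 * G y (velAt flow x (lg x y)) w
    rw [h, show (fun z => G x (lg x z) (lg x z)) = fun z => (⇑(G x) ∘ lg x) z (lg x z) from rfl,
      hd.fderiv]
    simp only [add_apply, ContinuousLinearMap.comp_apply, ContinuousLinearMap.flip_apply,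
      Function.comp_apply]
    rw [hG.symm x (fderiv ℝ (lg x) y w)]
    ring
  · have hbij := bijective_expAt hG hflow hJ x
    have hder : ∀ v ∈ Set.univ, HasFDerivWithinAt (expAt flow x)
        (fderiv ℝ (expAt flow x) v) Set.univ v := fun v _ =>
      ((contDiff_expAt hflow x).differentiable one_ne_zero v).hasFDerivAt.hasFDerivWithinAt
    have hvol := lintegral_image_eq_lintegral_abs_det_fderiv_mul volume MeasurableSet.univ hder
      hbij.injective.injOn fun y => h y * ENNReal.ofReal (dens G y)
    rw [Set.image_univ, hbij.surjective.range_eq, setLIntegral_univ, setLIntegral_univ] at hvol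
    rw [vol, lintegral_withDensity_eq_lintegral_mul_non_measurable]
    · rw [show (∫⁻ y, ((fun y => ENNReal.ofReal (dens G y)) * h) y) =
          ∫⁻ y, h y * ENNReal.ofReal (dens G y) from lintegral_congr fun y => mul_comm _ _, hvol]
      refine lintegral_mono fun v => ?_
      rw [← mul_assoc, mul_comm (ENNReal.ofReal _) (h _), mul_assoc,
        ← ENNReal.ofReal_mul (abs_nonneg _)]
      exact mul_le_mul' le_rfl (ENNReal.ofReal_le_ofReal
        (dens_le_det_mul hG (fderiv ℝ (expAt flow x) v) (hJ.expand x v)))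
    · refine ENNReal.measurable_ofReal.comp ?_
      refine (Real.continuous_sqrt.comp (Continuous.matrix_det ?_)).measurable
      exact continuous_pi fun i => continuous_pi fun j =>
        (hG.smooth.continuous.clm_apply continuous_const).clm_apply continuous_const
    · exact ae_of_all _ fun y => ENNReal.ofReal_lt_top

end

end Vale.Agent.P219.CH
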